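import Vale.Agent.Lib.P012_helper15.Defs

/-!
# P012, task T6: from a good sequence of primes to short representations by distinct divisors
-/

namespace Vale.Agent.Lib.P012

open Finset

/-- binary expansion -/
theorem binary_rep (E m : ℕ) (hm : m < 2 ^ E) :
    ∃ D : Finset ℕ, D ⊆ (range E).image (fun e => 2 ^ e) ∧ ∑ d ∈ D, d = m := by
  induction E generalizing m with
  | zero =>
    have : m = 0 := by simpa using hm
    exact ⟨∅, by simp, by simp [this]⟩
  | succ E ih =>
    by_cases h : m < 2 ^ E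
    · obtain ⟨D, hD, hs⟩ := ih m h
      exact ⟨D, hD.trans (image_subset_image (range_subset_range.2 (Nat.le_succ E))), hs⟩
    · push Not at h
      obtain ⟨D, hD, hs⟩ := ih (m - 2 ^ E) (by rw [pow_succ] at hm; omega)
      have hnot : 2 ^ E ∉ D := by
        intro hmem
        obtain ⟨e, he, hee⟩ := mem_image.1 (hD hmem)
        have : e = E := Nat.pow_right_injective (le_refl 2) hee
        simp [this] at he
      refine ⟨insert (2 ^ E) D, ?_, ?_⟩
      · intro x hx
        rcases mem_insert.1 hx with rfl | hx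
        · exact mem_image.2 ⟨E, by simp, rfl⟩
        · exact image_subset_image (range_subset_range.2 (Nat.le_succ E)) (hD hx)
      · rw [sum_insert hnot, hs]; omega

/-- the modulus built from the first `n` primes -/
def Mn (P : ℕ → ℕ) (E n : ℕ) : ℕ := 2 ^ E * ∏ i ∈ range n, P i

/-- every `m < Mn n` is a sum of at most `c` distinct divisors of `Mn n` -/
def Rep (P : ℕ → ℕ) (E n c : ℕ) : Prop :=
  ∀ m < Mn P E n, ∃ D : Finset ℕ, (∀ d ∈ D, d ∣ Mn P E n) ∧ ∑ d ∈ D, d = m ∧ D.card ≤ c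

theorem Mn_succ (P : ℕ → ℕ) (E n : ℕ) : Mn P E (n + 1) = Mn P E n * P n := by
  simp [Mn, prod_range_succ, mul_assoc]

theorem Mn_add (P : ℕ → ℕ) (E n j : ℕ) :
    Mn P E (n + j) = Mn P E n * ∏ i ∈ Ico n (n + j), P i := by
  rw [Mn, Mn, mul_assoc, prod_range_mul_prod_Ico _ (Nat.le_add_right n j)]

theorem rep_zero (P : ℕ → ℕ) (E : ℕ) : Rep P E 0 E := by
  intro m hm
  have hm' : m < 2 ^ E := by simpa [Mn] using hm
  obtain ⟨D, hD, hs⟩ := binary_rep E m hm'
  refine ⟨D, fun d hd => ?_, hs, ?_⟩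
  · obtain ⟨e, he, rfl⟩ := mem_image.1 (hD hd)
    simp only [Mn, range_zero, prod_empty, mul_one]
    exact pow_dvd_pow 2 (mem_range.1 he).le
  · calc D.card ≤ ((range E).image (fun e => 2 ^ e)).card := card_le_card hD
      _ ≤ (range E).card := card_image_le
      _ = E := card_range E

theorem rep_succ (P : ℕ → ℕ) (E n c : ℕ) (hp : (P n).Prime) (h5 : 5 ≤ P n) (hle : P n ≤ 2 ^ E)
    (h : Rep P E n c) : Rep P E (n + 1) (c + E) := by
  intro m hm
  rw [Mn_succ] at hm ⊢
  have hpos : 0 < P n := hp.pos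
  obtain ⟨Da, hDa, hsa, hca⟩ := h (m / P n) (Nat.div_lt_of_lt_mul (by rwa [mul_comm] at hm))
  obtain ⟨Db, hDb, hsb⟩ := binary_rep E (m % P n) ((Nat.mod_lt m hpos).trans_le hle)
  have hinj : Function.Injective (fun d => P n * d) := fun a b hab =>
    Nat.eq_of_mul_eq_mul_left hpos hab
  have hdisj : Disjoint (Da.image (fun d => P n * d)) Db := by
    rw [disjoint_left]
    intro x hx hx'
    obtain ⟨y, -, rfl⟩ := mem_image.1 hx
    obtain ⟨e, -, he⟩ := mem_image.1 (hDb hx')
    have h1 : P n ∣ 2 ^ e := by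
      have : (2 : ℕ) ^ e = P n * y := he
      rw [this]; exact dvd_mul_right _ _
    have h2 : P n ∣ 2 := hp.dvd_of_dvd_pow h1
    have := Nat.le_of_dvd (by norm_num) h2
    omega
  refine ⟨Da.image (fun d => P n * d) ∪ Db, fun d hd => ?_, ?_, ?_⟩
  · rcases mem_union.1 hd with hd | hd
    · obtain ⟨y, hy, rfl⟩ := mem_image.1 hd
      rw [mul_comm]
      exact mul_dvd_mul (hDa y hy) dvd_rfl
    · obtain ⟨e, he, rfl⟩ := mem_image.1 (hDb hd)
      refine Dvd.dvd.mul_right ?_ _
      exact Dvd.dvd.mul_right (pow_dvd_pow 2 (mem_range.1 he).le) _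
  · rw [sum_union hdisj, sum_image (fun a _ b _ hab => hinj hab), ← mul_sum, hsa, hsb]
    exact Nat.div_add_mod m (P n)
  · calc (Da.image (fun d => P n * d) ∪ Db).card
        ≤ (Da.image (fun d => P n * d)).card + Db.card := card_union_le _ _
      _ ≤ Da.card + ((range E).image (fun e => 2 ^ e)).card :=
          add_le_add card_image_le (card_le_card hDb)
      _ ≤ c + E := add_le_add hca (card_image_le.trans (card_range E).le)

theorem no_modEq {q a b m : ℕ} (hq : 5 ≤ q) (hab : a < b) (hb : b - a < 5)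
    (h1 : a ≡ m [MOD q]) (h2 : b ≡ m [MOD q]) : False := by
  have h3 : a ≡ b [MOD q] := h1.trans h2.symm
  have h4 : q ∣ b - a := (Nat.modEq_iff_dvd' hab.le).1 h3
  have := Nat.le_of_dvd (by omega) h4
  omega

theorem exists_unit_split (q m : ℕ) (hq : 5 ≤ q) :
    ∃ u : ℕ, 1 ≤ u ∧ u ≤ 3 ∧ ¬ u ≡ m [MOD q] ∧ ¬ 2 * u ≡ m [MOD q] := by
  by_contra hcon
  push Not at hcon
  have c1 := hcon 1 le_rfl (by norm_num)
  have c2 := hcon 2 (by norm_num) (by norm_num)
  have c3 := hcon 3 (by norm_num) le_rfl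
  by_cases a1 : 1 ≡ m [MOD q]
  · by_cases a2 : 2 ≡ m [MOD q]
    · exact no_modEq hq (by norm_num) (by norm_num) a1 a2
    · by_cases a3 : 3 ≡ m [MOD q]
      · exact no_modEq hq (by norm_num) (by norm_num) a1 a3
      · exact no_modEq hq (a := 2 * 2) (b := 2 * 3) (by norm_num) (by norm_num) (c2 a2) (c3 a3)
  · by_cases a2 : 2 ≡ m [MOD q]
    · by_cases a3 : 3 ≡ m [MOD q]
      · exact no_modEq hq (by norm_num) (by norm_num) a2 a3
      · exact no_modEq hq (a := 2 * 1) (b := 2 * 3) (by norm_num) (by norm_num) (c1 a1) (c3 a3)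
    · exact no_modEq hq (a := 2 * 1) (b := 2 * 2) (by norm_num) (by norm_num) (c1 a1) (c2 a2)

theorem prod_dvd_of_primes (P : ℕ → ℕ) (T : Finset ℕ) (hp : ∀ i ∈ T, (P i).Prime)
    (hinj : ∀ i ∈ T, ∀ i' ∈ T, P i = P i' → i = i') (z : ℕ) (hz : ∀ i ∈ T, P i ∣ z) :
    ∏ i ∈ T, P i ∣ z := by
  induction T using Finset.induction_on with
  | empty => simp
  | insert a T ha ih =>
    rw [prod_insert ha]
    refine Nat.Coprime.mul_dvd_of_dvd_of_dvd ?_ (hz a (mem_insert_self a T))
      (ih (fun i hi => hp i (mem_insert_of_mem hi))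
        (fun i hi i' hi' => hinj i (mem_insert_of_mem hi) i' (mem_insert_of_mem hi'))
        (fun i hi => hz i (mem_insert_of_mem hi)))
    refine Nat.Coprime.prod_right fun i hi => ?_
    refine (Nat.coprime_primes (hp a (mem_insert_self a T)) (hp i (mem_insert_of_mem hi))).2 ?_
    intro hEq
    have := hinj a (mem_insert_self a T) i (mem_insert_of_mem hi) hEq
    exact ha (this ▸ hi)

theorem rep_block (P : ℕ → ℕ) (s K X E : ℕ) (h : GoodSeq P s K X) (hE1 : 1 ≤ E)
    (n j c : ℕ) (hj : 1 ≤ j) (hK : K * j ≤ n) (hs : n + j ≤ s) (hr : Rep P E n c) :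
    Rep P E (n + j) (c + 2) := by
  intro m hm
  set Q := ∏ i ∈ Ico n (n + j), P i with hQ
  have hMadd : Mn P E (n + j) = Mn P E n * Q := Mn_add P E n j
  by_cases hsmall : m < Mn P E n
  · obtain ⟨D, hD, hsum, hc⟩ := hr m hsmall
    exact ⟨D, fun d hd => (hD d hd).trans (hMadd ▸ dvd_mul_right _ _), hsum, hc.trans (by omega)⟩
  push Not at hsmall
  have hex : ∀ i, ∃ u : ℕ, n ≤ i → i < n + j →
      (1 ≤ u ∧ u ≤ 3 ∧ ¬ u ≡ m [MOD P i] ∧ ¬ 2 * u ≡ m [MOD P i]) := by
    intro i
    by_cases hi : i < n + j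
    · obtain ⟨u, hu⟩ := exists_unit_split (P i) m (h.five_le i (by omega))
      exact ⟨u, fun _ _ => hu⟩
    · exact ⟨0, fun _ h' => absurd h' hi⟩
  choose u hu using hex
  set u' : ℕ → ℕ := fun i => m % P i + P i - u i with hu'
  have hsumu : ∀ i, n ≤ i → i < n + j → u i + u' i ≡ m [MOD P i] := by
    intro i h1 h2
    obtain ⟨-, h3, -, -⟩ := hu i h1 h2
    have h5 := h.five_le i (by omega)
    have : u i + u' i = m % P i + P i := by simp only [hu']; omega
    rw [this]
    simp [Nat.ModEq]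
  have hnd : ∀ i, n ≤ i → i < n + j → ¬ P i ∣ u i := by
    intro i h1 h2 hdvd
    obtain ⟨h0, h3, -, -⟩ := hu i h1 h2
    have h5 := h.five_le i (by omega)
    have := Nat.le_of_dvd (by omega) hdvd
    omega
  have hnd' : ∀ i, n ≤ i → i < n + j → ¬ P i ∣ u' i := by
    intro i h1 h2 hdvd
    obtain ⟨-, -, h4, -⟩ := hu i h1 h2
    apply h4
    have h0 : u' i ≡ 0 [MOD P i] := (Nat.modEq_zero_iff_dvd).2 hdvd
    have := (Nat.ModEq.add_left (u i) h0).symm.trans (hsumu i h1 h2)
    simpa using this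
  obtain ⟨S, hS, hSc⟩ := h.cov n j hj hK hs u hnd
  obtain ⟨S', hS', hSc'⟩ := h.cov n j hj hK hs u' hnd'
  set d := ∏ k ∈ S, P k with hd
  set d' := ∏ k ∈ S', P k with hd'
  set R := ∏ k ∈ range n, P k with hR
  have hRpos : 0 < R := prod_pos fun i hi => (h.prime i (by have := mem_range.1 hi; omega)).pos
  have hdR : d ∣ R := prod_dvd_prod_of_subset S (range n) P hS
  have hdR' : d' ∣ R := prod_dvd_prod_of_subset S' (range n) P hS'
  have hMn : Mn P E n = 2 ^ E * R := rfl
  have h2E : 2 ≤ 2 ^ E := by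
    calc 2 = 2 ^ 1 := by norm_num
      _ ≤ 2 ^ E := Nat.pow_le_pow_right (by norm_num) hE1
  have hdd : d + d' ≤ m := by
    have h1 := Nat.le_of_dvd hRpos hdR
    have h2 := Nat.le_of_dvd hRpos hdR'
    have h3 : 2 * R ≤ 2 ^ E * R := Nat.mul_le_mul_right R h2E
    rw [hMn] at hsmall
    omega
  have hQdvd : Q ∣ m - (d + d') := by
    refine prod_dvd_of_primes P (Ico n (n + j))
      (fun i hi => h.prime i (by have := mem_Ico.1 hi; omega))
      (fun i hi i' hi' => h.inj i (by have := mem_Ico.1 hi; omega) i'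
        (by have := mem_Ico.1 hi'; omega)) _ (fun i hi => ?_)
    obtain ⟨h1, h2⟩ := mem_Ico.1 hi
    refine (Nat.modEq_iff_dvd' hdd).1 ?_
    exact ((hSc i h1 h2).add (hSc' i h1 h2)).trans (hsumu i h1 h2)
  have hnmem : n ∈ Ico n (n + j) := mem_Ico.2 ⟨le_rfl, by omega⟩
  have hPQ : P n ∣ Q := dvd_prod_of_mem P hnmem
  have hQpos : 0 < Q := prod_pos fun i hi => (h.prime i (by have := mem_Ico.1 hi; omega)).pos
  have hdne : d ≠ d' := by
    intro hEq
    obtain ⟨-, -, -, h4⟩ := hu n le_rfl (by omega)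
    apply h4
    have e1 : u n ≡ u' n [MOD P n] :=
      (hSc n le_rfl (by omega)).symm.trans (hEq ▸ hSc' n le_rfl (by omega))
    have := (Nat.ModEq.add_left (u n) e1).trans (hsumu n le_rfl (by omega))
    rwa [← two_mul] at this
  have hPd : ¬ P n ∣ d := by
    intro hdvd
    apply hnd n le_rfl (by omega)
    exact (Nat.modEq_zero_iff_dvd).1
      ((hSc n le_rfl (by omega)).symm.trans ((Nat.modEq_zero_iff_dvd).2 hdvd))
  have hPd' : ¬ P n ∣ d' := by
    intro hdvd
    apply hnd' n le_rfl (by omega)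
    exact (Nat.modEq_zero_iff_dvd).1
      ((hSc' n le_rfl (by omega)).symm.trans ((Nat.modEq_zero_iff_dvd).2 hdvd))
  have hm' : (m - (d + d')) / Q < Mn P E n := by
    apply Nat.div_lt_of_lt_mul
    rw [hMadd, mul_comm] at hm
    omega
  obtain ⟨D, hD, hsum, hc⟩ := hr _ hm'
  have hinj : Function.Injective (fun x => Q * x) := fun a b hab =>
    Nat.eq_of_mul_eq_mul_left hQpos hab
  have hn1 : d' ∉ D.image (fun x => Q * x) := by
    intro hmem
    obtain ⟨y, -, hy⟩ := mem_image.1 hmem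
    exact hPd' (hy ▸ hPQ.mul_right y)
  have hn2 : d ∉ insert d' (D.image (fun x => Q * x)) := by
    intro hmem
    rcases mem_insert.1 hmem with hmem | hmem
    · exact hdne hmem
    · obtain ⟨y, -, hy⟩ := mem_image.1 hmem
      exact hPd (hy ▸ hPQ.mul_right y)
  refine ⟨insert d (insert d' (D.image (fun x => Q * x))), fun x hx => ?_, ?_, ?_⟩
  · rw [hMadd]
    rcases mem_insert.1 hx with rfl | hx
    · exact (hdR.trans (hMn ▸ dvd_mul_left _ _)).mul_right _
    rcases mem_insert.1 hx with rfl | hx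
    · exact (hdR'.trans (hMn ▸ dvd_mul_left _ _)).mul_right _
    · obtain ⟨y, hy, rfl⟩ := mem_image.1 hx
      rw [mul_comm]
      exact mul_dvd_mul (hD y hy) dvd_rfl
  · rw [sum_insert hn2, sum_insert hn1, sum_image (fun a _ b _ hab => hinj hab), ← mul_sum, hsum,
      Nat.mul_div_cancel' hQdvd]
    omega
  · calc (insert d (insert d' (D.image (fun x => Q * x)))).card
        ≤ (insert d' (D.image (fun x => Q * x))).card + 1 := card_insert_le _ _
      _ ≤ ((D.image (fun x => Q * x)).card + 1) + 1 :=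
          Nat.add_le_add_right (card_insert_le _ _) 1
      _ ≤ (D.card + 1) + 1 :=
          Nat.add_le_add_right (Nat.add_le_add_right card_image_le 1) 1
      _ ≤ c + 2 := by omega

theorem rep_small (P : ℕ → ℕ) (s K X E : ℕ) (h : GoodSeq P s K X) (hE : X ≤ 2 ^ E)
    (n : ℕ) (hn : n ≤ s) : Rep P E n (E * (n + 1)) := by
  induction n with
  | zero => simpa using rep_zero P E
  | succ n ih =>
    have := rep_succ P E n _ (h.prime n (by omega)) (h.five_le n (by omega))
      ((h.le n (by omega)).trans hE) (ih (by omega))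
    have e : E * (n + 1) + E = E * (n + 1 + 1) := by ring
    rwa [e] at this

theorem rep_bound (P : ℕ → ℕ) (s K X E : ℕ) (h : GoodSeq P s K X) (hE : X ≤ 2 ^ E)
    (hE1 : 1 ≤ E) (n : ℕ) (hn : n ≤ s) :
    ∃ c : ℕ, Rep P E n c ∧
      (c : ℝ) ≤ E * (2 * K + 2) + 4 * (K + 1) * Real.log (n + 1) := by
  induction n using Nat.strong_induction_on with
  | _ n ih =>
    by_cases hsm : n ≤ 2 * K + 1
    · refine ⟨E * (n + 1), rep_small P s K X E h hE n hn, ?_⟩
      have h1 : (0 : ℝ) ≤ 4 * (K + 1) * Real.log (n + 1) := by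
        have : (0 : ℝ) ≤ Real.log (n + 1) := Real.log_nonneg (by
          have : (0 : ℝ) ≤ n := Nat.cast_nonneg n
          linarith)
        positivity
      have h2 : ((E * (n + 1) : ℕ) : ℝ) ≤ E * (2 * K + 2) := by
        have : E * (n + 1) ≤ E * (2 * K + 2) := Nat.mul_le_mul_left E (by omega)
        exact_mod_cast this
      linarith
    · push Not at hsm
      set j := n / (K + 1) with hj
      have hKpos : 0 < K + 1 := Nat.succ_pos K
      have hj1 : (K + 1) * j ≤ n := Nat.mul_div_le n (K + 1)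
      have hj2 : n < (K + 1) * (j + 1) := by
        have := Nat.lt_mul_div_succ n hKpos
        simpa [hj] using this
      have hjpos : 1 ≤ j := by
        rw [hj, Nat.one_le_div_iff hKpos]
        omega
      have hjn : j ≤ n := Nat.div_le_self n (K + 1)
      have hKj : K * j ≤ n - j := by
        have : (K + 1) * j = K * j + j := by ring
        omega
      obtain ⟨c, hc, hcb⟩ := ih (n - j) (by omega) (by omega)
      have hrep := rep_block P s K X E h hE1 (n - j) j c hjpos hKj (by omega) hc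
      have e : n - j + j = n := by omega
      rw [e] at hrep
      refine ⟨c + 2, hrep, ?_⟩
      have hn1 : (0 : ℝ) < (n : ℝ) + 1 := by positivity
      have hn2 : (0 : ℝ) < ((n - j : ℕ) : ℝ) + 1 := by positivity
      have hcast : ((n - j : ℕ) : ℝ) = (n : ℝ) - j := by
        rw [Nat.cast_sub hjn]
      have hlog : (j : ℝ) / ((n : ℝ) + 1)
          ≤ Real.log ((n : ℝ) + 1) - Real.log (((n - j : ℕ) : ℝ) + 1) := by
        rw [← Real.log_div hn1.ne' hn2.ne']
        have h3 := Real.one_sub_inv_le_log_of_pos (div_pos hn1 hn2)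
        have h4 : 1 - (((n : ℝ) + 1) / (((n - j : ℕ) : ℝ) + 1))⁻¹ = (j : ℝ) / ((n : ℝ) + 1) := by
          rw [inv_div, hcast]
          field_simp
          ring
        linarith
      have hfrac : (1 : ℝ) / (2 * (K + 1)) ≤ (j : ℝ) / ((n : ℝ) + 1) := by
        rw [div_le_div_iff₀ (by positivity) hn1]
        have : n + 1 ≤ j * (2 * (K + 1)) := by
          have h5 : (K + 1) * (j + 1) = (K + 1) * j + (K + 1) := by ring
          have h6 : j * (2 * (K + 1)) = 2 * ((K + 1) * j) := by ring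
          omega
        have h7 : ((n + 1 : ℕ) : ℝ) ≤ ((j * (2 * (K + 1)) : ℕ) : ℝ) := by exact_mod_cast this
        push_cast at h7
        linarith
      have hK1 : (0 : ℝ) < (K : ℝ) + 1 := by positivity
      have hfin : (2 : ℝ) ≤ 4 * (K + 1)
          * (Real.log ((n : ℝ) + 1) - Real.log (((n - j : ℕ) : ℝ) + 1)) := by
        have h8 : (1 : ℝ) / (2 * (K + 1))
            ≤ Real.log ((n : ℝ) + 1) - Real.log (((n - j : ℕ) : ℝ) + 1) := hfrac.trans hlog
        have h9 : 4 * ((K : ℝ) + 1) * (1 / (2 * (K + 1))) = 2 := by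
          field_simp
          ring
        calc (2 : ℝ) = 4 * ((K : ℝ) + 1) * (1 / (2 * (K + 1))) := h9.symm
          _ ≤ _ := by gcongr
      push_cast
      nlinarith [hcb, hfin]

theorem rep_of_goodSeq (P : ℕ → ℕ) (s K X E : ℕ) (h : GoodSeq P s K X) (hE : X ≤ 2 ^ E)
    (hE1 : 1 ≤ E) (n : ℕ) (hn : n ≤ s) (m : ℕ) (hm : m < 2 ^ E * ∏ i ∈ range n, P i) :
    ∃ D : Finset ℕ, (∀ d ∈ D, d ∣ 2 ^ E * ∏ i ∈ range n, P i) ∧ ∑ d ∈ D, d = m ∧
      (D.card : ℝ) ≤ E * (2 * K + 2) + 4 * (K + 1) * Real.log (n + 1) := by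
  obtain ⟨c, hc, hcb⟩ := rep_bound P s K X E h hE hE1 n hn
  obtain ⟨D, hD, hsum, hcard⟩ := hc m hm
  refine ⟨D, hD, hsum, le_trans ?_ hcb⟩
  exact_mod_cast hcard

end Vale.Agent.Lib.P012
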