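import Vale.Agent.Lib.P012_helper15.Defs

/-!
# P012, task T2: the abstract large values estimate (Halasz-Montgomery) and the fibre bound
-/

namespace Vale.Agent.Lib.P012

open Finset

variable {ι : Type} [Fintype ι] [DecidableEq ι]

theorem large_values {κ Ω : Type} [DecidableEq κ] (F : Finset κ) (f : κ → ℕ → ℂ) (N : ℕ) (B : ℝ)
    (hB : 0 ≤ B) (hf : ∀ k ∈ F, ∀ n, ‖f k n‖ ≤ 1)
    (hq : ∀ k ∈ F, ∀ k' ∈ F, k ≠ k' →
      ‖∑ n ∈ range N, f k n * (starRingEnd ℂ) (f k' n)‖ ≤ B)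
    (W : Finset Ω) (ν : Ω → ℕ) (hν : ∀ ρ ∈ W, ν ρ < N) (A : ℕ)
    (hA : ∀ n, (W.filter (fun ρ => ν ρ = n)).card ≤ A) :
    ∑ k ∈ F, ‖∑ ρ ∈ W, f k (ν ρ)‖ ^ 2 ≤ (A : ℝ) * W.card * (N + F.card * B) := by
  classical
  set Z : κ → ℂ := fun k => ∑ ρ ∈ W, f k (ν ρ) with hZ
  set V : ℝ := ∑ k ∈ F, ‖Z k‖ ^ 2 with hV
  set g : ℕ → ℂ := fun n => ∑ k ∈ F, (starRingEnd ℂ) (Z k) * f k n with hg
  have hV0 : 0 ≤ V := sum_nonneg fun k _ => by positivity
  -- step 1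
  have h1 : (V : ℂ) = ∑ ρ ∈ W, g (ν ρ) := by
    simp only [hg]
    rw [sum_comm]
    simp only [← mul_sum]
    rw [hV]
    push_cast
    refine sum_congr rfl fun k _ => ?_
    rw [← Complex.conj_mul']
  -- step 2
  have h2 : V ≤ ∑ ρ ∈ W, ‖g (ν ρ)‖ := by
    calc V = ‖(V : ℂ)‖ := by rw [Complex.norm_real, Real.norm_of_nonneg hV0]
      _ = ‖∑ ρ ∈ W, g (ν ρ)‖ := by rw [h1]
      _ ≤ _ := norm_sum_le _ _
  -- step 3
  have h3 : (∑ ρ ∈ W, ‖g (ν ρ)‖) ^ 2 ≤ W.card * ∑ ρ ∈ W, ‖g (ν ρ)‖ ^ 2 :=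
    sq_sum_le_card_mul_sum_sq
  -- step 4
  have h4 : ∑ ρ ∈ W, ‖g (ν ρ)‖ ^ 2 ≤ A * ∑ n ∈ range N, ‖g n‖ ^ 2 := by
    rw [← sum_fiberwise_of_maps_to (s := W) (t := range N) (g := ν)
      (fun ρ hρ => mem_range.2 (hν ρ hρ)), mul_sum]
    refine sum_le_sum fun n _ => ?_
    have : ∑ ρ ∈ W with ν ρ = n, ‖g (ν ρ)‖ ^ 2 = ∑ ρ ∈ W with ν ρ = n, ‖g n‖ ^ 2 :=
      sum_congr rfl fun ρ hρ => by rw [(mem_filter.1 hρ).2]
    rw [this, sum_const, nsmul_eq_mul]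
    have hc : ((W.filter (fun ρ => ν ρ = n)).card : ℝ) ≤ A := by exact_mod_cast hA n
    gcongr
  -- step 5
  set I : κ → κ → ℂ := fun k k' => ∑ n ∈ range N, f k n * (starRingEnd ℂ) (f k' n) with hI
  have hIb : ∀ k ∈ F, ∀ k' ∈ F, ‖I k k'‖ ≤ B + (if k = k' then (N : ℝ) else 0) := by
    intro k hk k' hk'
    by_cases hkk : k = k'
    · subst hkk
      rw [if_pos rfl]
      have : ‖I k k‖ ≤ N := by
        calc ‖I k k‖ ≤ ∑ n ∈ range N, ‖f k n * (starRingEnd ℂ) (f k n)‖ := norm_sum_le _ _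
          _ ≤ ∑ n ∈ range N, (1 : ℝ) := by
              refine sum_le_sum fun n _ => ?_
              rw [norm_mul, RCLike.norm_conj]
              have := hf k hk n
              have h0 := norm_nonneg (f k n)
              nlinarith
          _ = N := by simp
      linarith
    · rw [if_neg hkk, add_zero]
      exact hq k hk k' hk' hkk
  have h5a : ((∑ n ∈ range N, ‖g n‖ ^ 2 : ℝ) : ℂ)
      = ∑ k ∈ F, ∑ k' ∈ F, (starRingEnd ℂ) (Z k) * Z k' * I k k' := by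
    push_cast
    have : ∀ n, ((‖g n‖ : ℂ)) ^ 2
        = ∑ k ∈ F, ∑ k' ∈ F, (starRingEnd ℂ) (Z k) * Z k' * (f k n * (starRingEnd ℂ) (f k' n)) := by
      intro n
      rw [← Complex.mul_conj']
      simp only [hg, map_sum, map_mul, Complex.conj_conj]
      rw [sum_mul_sum]
      refine sum_congr rfl fun k _ => sum_congr rfl fun k' _ => ?_
      ring
    simp only [this]
    rw [sum_comm]
    refine sum_congr rfl fun k _ => ?_
    rw [sum_comm]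
    refine sum_congr rfl fun k' _ => ?_
    exact (mul_sum _ _ _).symm
  have hS0 : 0 ≤ ∑ n ∈ range N, ‖g n‖ ^ 2 := sum_nonneg fun n _ => by positivity
  have h5b : ∑ n ∈ range N, ‖g n‖ ^ 2
      ≤ ∑ k ∈ F, ∑ k' ∈ F, ‖Z k‖ * ‖Z k'‖ * (B + (if k = k' then (N : ℝ) else 0)) := by
    calc ∑ n ∈ range N, ‖g n‖ ^ 2 = ‖((∑ n ∈ range N, ‖g n‖ ^ 2 : ℝ) : ℂ)‖ := by
          rw [Complex.norm_real, Real.norm_of_nonneg hS0]
      _ = ‖∑ k ∈ F, ∑ k' ∈ F, (starRingEnd ℂ) (Z k) * Z k' * I k k'‖ := by rw [h5a]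
      _ ≤ ∑ k ∈ F, ‖∑ k' ∈ F, (starRingEnd ℂ) (Z k) * Z k' * I k k'‖ := norm_sum_le _ _
      _ ≤ ∑ k ∈ F, ∑ k' ∈ F, ‖(starRingEnd ℂ) (Z k) * Z k' * I k k'‖ :=
          sum_le_sum fun k _ => norm_sum_le _ _
      _ ≤ _ := by
          refine sum_le_sum fun k hk => sum_le_sum fun k' hk' => ?_
          rw [norm_mul, norm_mul, RCLike.norm_conj]
          have := hIb k hk k' hk'
          gcongr
  have h5c : ∑ k ∈ F, ∑ k' ∈ F, ‖Z k‖ * ‖Z k'‖ * (B + (if k = k' then (N : ℝ) else 0))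
      = B * (∑ k ∈ F, ‖Z k‖) ^ 2 + N * V := by
    have : ∀ k ∈ F, ∑ k' ∈ F, ‖Z k‖ * ‖Z k'‖ * (B + (if k = k' then (N : ℝ) else 0))
        = B * (‖Z k‖ * ∑ k' ∈ F, ‖Z k'‖) + N * ‖Z k‖ ^ 2 := by
      intro k hk
      simp only [mul_add, sum_add_distrib, mul_ite, mul_zero]
      rw [sum_ite_eq F k, if_pos hk, mul_sum, mul_sum]
      congr 1
      · refine sum_congr rfl fun k' _ => ?_
        ring
      · ring
    rw [sum_congr rfl this, sum_add_distrib, ← mul_sum, ← mul_sum, ← sum_mul, hV]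
    ring
  have h5d : (∑ k ∈ F, ‖Z k‖) ^ 2 ≤ F.card * V := sq_sum_le_card_mul_sum_sq
  have h5 : ∑ n ∈ range N, ‖g n‖ ^ 2 ≤ (N + F.card * B) * V := by
    calc ∑ n ∈ range N, ‖g n‖ ^ 2 ≤ B * (∑ k ∈ F, ‖Z k‖) ^ 2 + N * V := h5b.trans h5c.le
      _ ≤ B * (F.card * V) + N * V := by gcongr
      _ = (N + F.card * B) * V := by ring
  -- step 6
  have hC0 : 0 ≤ (A : ℝ) * W.card * (N + F.card * B) := by positivity
  have h6 : V ^ 2 ≤ ((A : ℝ) * W.card * (N + F.card * B)) * V := by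
    calc V ^ 2 ≤ (∑ ρ ∈ W, ‖g (ν ρ)‖) ^ 2 := by gcongr
      _ ≤ W.card * ∑ ρ ∈ W, ‖g (ν ρ)‖ ^ 2 := h3
      _ ≤ W.card * (A * ∑ n ∈ range N, ‖g n‖ ^ 2) := by gcongr
      _ ≤ W.card * (A * ((N + F.card * B) * V)) := by gcongr
      _ = _ := by ring
  rcases hV0.eq_or_lt with h0 | hpos
  · rw [← h0]; exact hC0
  · have : V * V ≤ ((A : ℝ) * W.card * (N + F.card * B)) * V := by rwa [← sq]
    exact le_of_mul_le_mul_right this hpos

theorem fiber_le (p : ι → ℕ) (hp : ∀ a, (p a).Prime) (hinj : Function.Injective p) (l n : ℕ) :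
    ((univ : Finset (Fin l → ι)).filter (fun ρ => ∏ k, p (ρ k) = n)).card ≤ l.factorial := by
  classical
  rcases ((univ : Finset (Fin l → ι)).filter (fun ρ => ∏ k, p (ρ k) = n)).eq_empty_or_nonempty
    with h0 | ⟨ρ0, hρ0⟩
  · rw [h0]; simp
  have key : ∀ ρ : Fin l → ι, ∏ k, p (ρ k) = n →
      List.Perm ((List.ofFn ρ).map p) n.primeFactorsList := by
    intro ρ hρ
    refine Nat.primeFactorsList_unique ?_ ?_
    · rw [List.map_ofFn, List.prod_ofFn]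
      exact hρ
    · intro q hq
      obtain ⟨a, -, rfl⟩ := List.mem_map.1 hq
      exact hp a
  have h0 := key ρ0 (mem_filter.1 hρ0).2
  have hsub : ((univ : Finset (Fin l → ι)).filter (fun ρ => ∏ k, p (ρ k) = n)).image List.ofFn
      ⊆ (List.ofFn ρ0).permutations.toFinset := by
    intro L hL
    obtain ⟨ρ, hρ, rfl⟩ := mem_image.1 hL
    rw [List.mem_toFinset, List.mem_permutations]
    exact (List.map_perm_map_iff hinj).1 ((key ρ (mem_filter.1 hρ).2).trans h0.symm)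
  calc ((univ : Finset (Fin l → ι)).filter (fun ρ => ∏ k, p (ρ k) = n)).card
      = (((univ : Finset (Fin l → ι)).filter (fun ρ => ∏ k, p (ρ k) = n)).image List.ofFn).card :=
        (card_image_of_injective _ List.ofFn_injective).symm
    _ ≤ (List.ofFn ρ0).permutations.toFinset.card := card_le_card hsub
    _ ≤ (List.ofFn ρ0).permutations.length := List.toFinset_card_le _
    _ = l.factorial := by rw [List.length_permutations, List.length_ofFn]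

end Vale.Agent.Lib.P012
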